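import Crest.Agent.R208.T2a
import Crest.Agent.R240.Lin1
import Crest.Agent.R240.Ch3

/-!
# Row 262, LAT-P12 (helper80), part 1: two-forms as bilinear forms

* `bl c`    : the bilinear form of the part of degree two of `c`;
* `top_mul` : the top coefficient of a product is `W`;
* `dd_bl`   : the two exterior derivatives agree.
-/

set_option autoImplicit false

noncomputable section

namespace Crest.Agent.X262.P12

open Crest.Agent.R208.F Crest.Agent.R208.FI Crest.Agent.R208.T
open Crest.Agent.R240 (E4 W Bil)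

theorem ev2 {V : Type*} [AddCommGroup V] [Module ℝ V] (c : Ext V) (u v : V) :
    evA V 2 c ![u, v] = evA V 0 (ii v (ii u c)) ![] := by
  rw [evA_ii, evA_ii]

/-- the bilinear form of `c` -/
def bl0 (c : Ext E4) : Bil := LinearMap.toContinuousBilinearMap
  (LinearMap.mk₂ ℝ (fun u v : E4 => evA E4 2 c ![u, v]) (fun _ _ _ => by simp [ev2])
    (fun _ _ _ => by simp [ev2]) (fun _ _ _ => by simp [ev2]) fun _ _ _ => by simp [ev2])

/-- the bilinear form of `c` -/
def bl : Ext E4 →L[ℝ] Bil := LinearMap.toContinuousLinearMap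
  { toFun := bl0
    map_add' := fun a b => by
      ext u v
      exact congrArg (fun f : E4 [⋀^Fin 2]→ₗ[ℝ] ℝ => f ![u, v]) (map_add (evA E4 2) a b)
    map_smul' := fun r a => by
      ext u v
      exact congrArg (fun f : E4 [⋀^Fin 2]→ₗ[ℝ] ℝ => f ![u, v]) (map_smul (evA E4 2) r a) }

theorem bl_apply (c : Ext E4) (u v : E4) : bl c u v = evA E4 2 c ![u, v] := rfl

theorem evA_two (c : Ext E4) (v : Fin 2 → E4) : evA E4 2 c v = bl c (v 0) (v 1) := by
  rw [bl_apply]
  congr 1
  funext i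
  fin_cases i <;> rfl

theorem bl_self (c : Ext E4) (v : E4) : bl c v v = 0 := by
  rw [bl_apply, ev2, ii_ii, map_zero]
  rfl

theorem bl_pb (L : E4 →ₗ[ℝ] E4) (c : Ext E4) (u v : E4) : bl (pb L c) u v = bl c (L u) (L v) := by
  rw [bl_apply, evA_pb, evA_two]
  rfl

theorem ev3 (l : Module.Dual ℝ E4) (c : Ext E4) (v : Fin 3 → E4) : evA E4 3 (io l * c) v =
    l (v 0) * bl c (v 1) (v 2) - l (v 1) * bl c (v 0) (v 2) + l (v 2) * bl c (v 0) (v 1) := by
  refine (evA_io_mul 2 l c v).trans ((Fin.sum_univ_three _).trans ?_)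
  simp only [evA_two]
  simp [Fin.succAbove]
  ring

theorem top_iMulti (l : Fin 2 → Module.Dual ℝ E4) (b : Ext E4) :
    top 4 (ExteriorAlgebra.ιMulti ℝ 2 l * b) = W (bl (ExteriorAlgebra.ιMulti ℝ 2 l)) (bl b) := by
  have h1 : ∀ u v, bl (ExteriorAlgebra.ιMulti ℝ 2 l) u v = l 0 u * l 1 v - l 1 u * l 0 v :=
    fun u v => by
      rw [bl_apply, evA_iMulti, Matrix.det_fin_two]
      rfl
  have h2 : ∀ i, sb 4 i = R240.ee i := fun i => by simp [R240.ee]
  simp only [W, R240.ent, h1]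
  rw [show ExteriorAlgebra.ιMulti ℝ 2 l = io (l 0) * io (l 1) by
    simp [ExteriorAlgebra.ιMulti_apply, Matrix.vecTail], mul_assoc, top_apply]
  refine (evA_io_mul 3 _ _ _).trans ((Fin.sum_univ_four _).trans ?_)
  simp only [ev3, h2]
  simp [Fin.succAbove]
  ring

theorem top_mul {a : Ext E4} (ha : IsDeg 2 a) (b : Ext E4) : top 4 (a * b) = W (bl a) (bl b) := by
  let f : Ext E4 →ₗ[ℝ] ℝ :=
    { toFun := fun a => top 4 (dpl 2 a * b)
      map_add' := fun a a' => by rw [map_add, add_mul, map_add]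
      map_smul' := fun r a => by rw [map_smul, smul_mul_assoc, map_smul]; rfl }
  let g : Ext E4 →ₗ[ℝ] ℝ :=
    { toFun := fun a => W (bl a) (bl b)
      map_add' := fun a a' => by rw [map_add, R240.W_add_left]
      map_smul' := fun r a => by rw [map_smul, R240.W_smul_left]; rfl }
  have h : top 4 (dpl 2 a * b) = W (bl a) (bl b) := ext_lin (f := f) (g := g) (fun p l => ?_) a
  · rwa [dpl_of_isDeg ha] at h
  simp only [f, g, LinearMap.coe_mk, AddHom.coe_mk]
  by_cases hp : p = 2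
  · subst hp
    rw [dpl_iMulti_same, top_iMulti]
  · have h1 : bl (ExteriorAlgebra.ιMulti ℝ p l) = 0 := by
      ext u v
      rw [bl_apply, evA_iMulti_ne hp]
      rfl
    rw [dpl_iMulti_ne hp, zero_mul, map_zero, h1]
    simp [W, R240.ent]

theorem evA_wd (T : E4 →L[ℝ] Ext E4) (u v w : E4) :
    evA E4 3 (wd E4 T) ![u, v, w] = bl (T u) v w - bl (T v) u w + bl (T w) u v := by
  have h : ∀ x y z : E4, ∑ k, (sb 4).coord k x * bl (T (sb 4 k)) y z = bl (T x) y z := by
    intro x y z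
    conv_rhs => rw [← (sb 4).sum_repr x]
    simp only [map_sum, map_smul, sum_apply, smul_apply,
      smul_eq_mul, Module.Basis.coord_apply]
  rw [wd_basis (sb 4), ← h u, ← h v, ← h w, ← Finset.sum_sub_distrib, ← Finset.sum_add_distrib,
    map_sum]
  exact (map_sum (AddMonoidHom.mk' (fun f : E4 [⋀^Fin 3]→ₗ[ℝ] ℝ => f ![u, v, w])
    fun _ _ => rfl) (fun k => evA E4 3 (io ((sb 4).coord k) * T (sb 4 k))) Finset.univ).trans
      (Finset.sum_congr rfl fun k _ => ev3 _ _ _)

theorem dd_bl {g : E4 → Ext E4} {y : E4} (hg : DifferentiableAt ℝ g y) (u v w : E4) :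
    R240.Ch.dd (fun z => bl (g z)) y u v w = evA E4 3 (d g y) ![u, v, w] := by
  have h : fderiv ℝ (fun z => bl (g z)) y = bl.comp (fderiv ℝ g y) :=
    (bl.hasFDerivAt.comp y hg.hasFDerivAt).fderiv
  rw [d, evA_wd, R240.Ch.dd, h]
  rfl

end Crest.Agent.X262.P12
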