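import Crest.Agent.X262.Lat.UDefs
import Crest.Agent.X262.P12.Lin

/-!
# Row 262, LAT-P12 (helper80), part 2: forms and integrals on `Mf A`

* `rep_eq` : a restricted form in any chart;
* `p1Stmt` : `Lat.P1Stmt`;
* `p2Stmt` : `Lat.P2Stmt`.
-/

set_option autoImplicit false
set_option linter.unusedSectionVars false
set_option linter.style.haveILetI false

open Set Filter Topology MeasureTheory
open scoped Manifold ContDiff

noncomputable section

namespace Crest.Agent.X262.P12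

open Crest.Agent.R208.F Crest.Agent.R208.FI Crest.Agent.R208.CW Crest.Agent.R208.T
open Crest.Agent.X262.Man Crest.Agent.X262.Lat
open Crest.Agent.R275.Geo (Cn Atl)
open Crest.Agent.R240 (E4 W Bil)
open Crest.Agent.R240.Ch (F2 at2 rep Smooth2 Closed2 Z2)

theorem int_pu {X ι : Type*} [TopologicalSpace X] [CompactSpace X] [MeasurableSpace X]
    [OpensMeasurableSpace X] (μ : Measure X) [IsFiniteMeasure μ] {t : Finset ι} {χ : ι → X → ℝ}
    (hc : ∀ p, Continuous (χ p)) (h1 : ∀ x, ∑ p ∈ t, χ p x = 1) {f : X → ℝ} (hf : Continuous f) :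
    ∫ x, f x ∂μ = ∑ p ∈ t, ∫ x, χ p x * f x ∂μ := by
  rw [← integral_finsetSum (f := fun p x => χ p x * f x) t fun p _ =>
    ((hc p).mul hf).integrable_of_hasCompactSupport (HasCompactSupport.of_compactSpace _)]
  simp only [← Finset.sum_mul, h1, one_mul]

variable {M : Type} [TopologicalSpace M] [CompactSpace M] {A : Atl 2 M} {E : Type}
  [NormedAddCommGroup E] [NormedSpace ℝ E] [FiniteDimensional ℝ E] (ε : Emb A E)
  {w w' : E → Ext E} {i : A.ι} {y : E4}

/-- the form `w` in the real chart `i` -/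
def lc (i : A.ι) (w : E → Ext E) (y : E4) : Ext E4 := pull (ε.rpar i) w y

theorem contDiffAt_rpar (hy : cL 2 y ∈ (A.e i).target) : ContDiffAt ℝ ∞ (ε.rpar i) y :=
  (ε.contDiffAt_par hy).comp y (cL 2).contDiff.contDiffAt

theorem contDiffAt_lc (hw : Sm ε.X w) (hy : cL 2 y ∈ (A.e i).target) :
    ContDiffAt ℝ ∞ (lc ε i w) y :=
  contDiffAt_pull (contDiffAt_rpar ε hy) (le_refl _) (hw _ (ε.par_mem i _))

theorem d_lc (hw : EC ε.X w) (hy : cL 2 y ∈ (A.e i).target) : d (lc ε i w) y = 0 := by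
  refine (d_pull ((contDiffAt_rpar ε hy).of_le two_le) (hw.sm.diff (ε.par_mem i _))).trans ?_
  rw [ε.pull_rpar hy, ε.pull_d hw.sm hy, (ε.cl_iff hw.sm).1 hw.cl i _ hy, map_zero]

theorem W_lc (hw : Hom 2 w) (hy : cL 2 y ∈ (A.e i).target) :
    W (bl (lc ε i w y)) (bl (lc ε i w' y)) = topC 2 (pull (ε.par i) (w * w') (cL 2 y)) := by
  rw [← ε.top_rpar hy, pull_mul']
  exact (top_mul (hw.pull y) _).symm

/-- a restricted form in any chart -/
theorem rep_eq {a : F2 E4 (Mf A)}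
    (h : ∀ x, at2 a x = bl (lc ε (ci A x) w (rch A (ci A x) x))) {p : Mf A}
    (hy : y ∈ (chartAt E4 p).target) : rep p a y = bl (lc ε (ci A p) w y) := by
  set x := (chartAt E4 p).symm y with hx
  have h1 := R240.Ch.trans_contDiffAt hy (mem_chart_source E4 x)
  have h2 : ε.rpar (ci A p) =ᶠ[𝓝 y] ε.rpar (ci A x) ∘ R240.Ch.trans (E := E4) p x := by
    filter_upwards [((chartAt E4 p).isOpen_inter_preimage_symm
      (chartAt E4 x).open_source).mem_nhds ⟨hy, mem_chart_source E4 x⟩] with z hz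
    exact congrArg ε.j ((chartAt E4 x).left_inv hz.2).symm
  have h3 : lc ε (ci A p) w y = pull (R240.Ch.trans (E := E4) p x) (lc ε (ci A x) w) y :=
    (pull_congr h2).trans (pull_comp (h1.differentiableAt (by simp))
      ((contDiffAt_rpar ε (mem_chart_target E4 x)).differentiableAt (by simp))).symm
  ext u v
  rw [R240.Ch.rep_apply, h, R240.Ch.tcc_eq_fderiv_trans, (chartAt E4 p).right_inv hy, h3, pull,
    bl_pb]
  rfl

theorem Rp.at2 {a : Z2 (Mf A)} (h : Rp ε w a) (x : Mf A) :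
    at2 (a.1.1 : F2 E4 (Mf A)) x = bl (lc ε (ci A x) w (rch A (ci A x) x)) := by
  ext u v
  exact h x u v

/-- **closed two-forms restrict** -/
theorem p1Stmt : P1Stmt := by
  intro M _ _ A E _ _ _ ε w hw _
  let a : F2 E4 (Mf A) := fun x => bl (lc ε (ci A x) w (rch A (ci A x) x))
  have h1 : ∀ (p : Mf A), ∀ y ∈ (chartAt E4 p).target,
      rep p a =ᶠ[𝓝 y] fun z => bl (lc ε (ci A p) w z) := fun p y hy => by
    filter_upwards [(chartAt E4 p).open_target.mem_nhds hy] with z hz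
    exact rep_eq ε (fun _ => rfl) hz
  have h2 : Smooth2 a := ⟨fun x v => bl_self _ v, fun p y hy =>
    ((bl.contDiff.contDiffAt.comp y (contDiffAt_lc ε hw.sm hy)).congr_of_eventuallyEq
      (h1 p y hy)).contDiffWithinAt⟩
  have h3 : Closed2 a := fun p y hy u v t => by
    have h4 := dd_bl ((contDiffAt_lc ε hw.sm hy).differentiableAt (by simp)) u v t
    rw [d_lc ε hw hy, map_zero] at h4
    rw [R240.Ch.dd, (h1 p y hy).fderiv_eq]
    exact h4
  exact ⟨⟨⟨a, h2⟩, h3⟩, fun _ _ _ => rfl⟩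

theorem int_chart [MeasurableSpace M] [BorelSpace M] (i : A.ι) {g : M → ℝ}
    (h0 : ∀ x, x ∉ (A.e i).source → g x = 0) (om : E → Ext E) :
    ∫ x, g x * ε.den om x ∂ε.vol = ∫ u in cL 2 ⁻¹' (A.e i).target,
      g ((A.e i).symm (cL 2 u)) * topC 2 (pull (ε.par i) om (cL 2 u)) := by
  rw [setIntegral_cL fun z => g ((A.e i).symm z) * topC 2 (pull (ε.par i) om z),
    ← (A.e i).image_source_eq_target,
    ← ε.setInt_chart (A.e i).open_source.measurableSet subset_rfl,
    setIntegral_eq_integral_of_forall_compl_eq_zero fun x hx => by rw [h0 x hx, zero_mul]]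

/-- **the integrals agree** -/
theorem p2Stmt : P2Stmt := by
  intro M _ _ _ A E _ _ _ ε om F _ ho hF hpos
  have h1 : ∀ i y, cL 2 y ∈ (A.e i).target → 0 < W (bl (lc ε i om y)) (bl (lc ε i om y)) :=
    fun i y hy => (W_lc ε ho hy).symm ▸ hpos i _ hy
  have h2 : ∀ x, W (R235.val F x) (R235.val F x) ≠ 0 := fun x => by
    rw [R235.val, Rp.at2 ε hF]
    exact (h1 _ _ (mem_chart_target E4 x)).ne'
  refine ⟨h2, fun w w' a b hw hd hw' _ ha hb => ?_⟩
  letI : MeasurableSpace M := borel M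
  haveI : BorelSpace M := ⟨rfl⟩
  letI : MeasurableSpace (Mf A) := borel (Mf A)
  haveI : BorelSpace (Mf A) := ⟨rfl⟩
  have hV : R240.Int.Vol (F.1.1 : F2 E4 (Mf A)) := ⟨F.1.2.1, fun p => (F.1.2.2 p).continuousOn, h2⟩
  obtain ⟨P⟩ := R240.Int.nonempty_PU (Mf A)
  haveI := R240.Int.isFinite_mu hV
  have h3 := R240.Int.continuous_qG hV (R240.Int.Smooth2.cont2 a.1.2)
    (R240.Int.Smooth2.cont2 b.1.2)
  have h4 : ContinuousOn (w * w') ε.X := fun x hx =>
    ((hw.sm.mul hw'.sm) x hx).continuousAt.continuousWithinAt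
  have h7 : ∀ p, Continuous fun x : M => P.χ p x := P.continuous
  rw [ε.Int_eq, int_pu ε.vol (t := P.t) h7 P.sum_one (ε.continuous_den h4)]
  refine (int_pu _ P.continuous P.sum_one h3).trans (Finset.sum_congr rfl fun p hp => ?_)
  have h5 : ∀ x, x ∉ (chartAt E4 p).source → P.χ p x = 0 := fun x hx =>
    image_eq_zero_of_notMem_tsupport fun h => hx (P.supp p hp h)
  refine (R240.Int.integral_mu_of_supp hV p ((P.continuous p).mul h3).aestronglyMeasurable
    fun x hx => by rw [Pi.mul_apply, h5 x hx, zero_mul]).trans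
      (Eq.trans ?_ (int_chart ε (ci A p) h5 _).symm)
  refine setIntegral_congr_fun (chartAt E4 p).open_target.measurableSet fun y hy => ?_
  have h6 : R240.Int.sg (F.1.1 : F2 E4 (Mf A)) p y = 1 := by
    rw [R240.Int.sg, rep_eq ε (Rp.at2 ε hF) hy, sign_pos (h1 _ _ hy), SignType.coe_one]
  simp only [Pi.mul_apply, smul_eq_mul]
  rw [R240.Int.qG_chart hV a.1.2.1 b.1.2.1 hy, mul_left_comm, R240.Int.dens_mul_q hV hy, h6,
    one_mul, rep_eq ε (Rp.at2 ε ha) hy, rep_eq ε (Rp.at2 ε hb) hy, W_lc ε hd hy]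
  rfl

end Crest.Agent.X262.P12
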